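import Vale.Agent.P011.E6.H637.Index
import Vale.Agent.P011.E6.Reach

/-!
Normal subgroups of finite index contain the special unitary groups of degree three over the
quaternion algebras, in all coordinates reached from the given ones.
-/

open Matrix NumberField

namespace Vale.Agent.P011.E6

open Vale.Agent.P011.MPQ Vale.Agent.P011.D4 Vale.Agent.P011.D4.Oct

/-- **Normal subgroups of finite index.** -/
theorem hasA_of_index {k K : Type} [Field k] [NumberField k] [Field K] [NumberField K] [Algebra k K]
    (h2 : Module.finrank k K = 2) {σ : K ≃ₐ[k] K} (hσ : σ ≠ 1) {a b c : kˣ} {g : Fin 3 → kˣ}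
    (hdiv : Division (up K a) (up K b) (up K c))
    (hanis : ∀ x : AlbL K a b c, herm σ g x x = 0 → x = 0)
    (N : Subgroup (GE σ a b c g)) (_hN : N.Normal) (hi : N.index ≠ 0) :
    HasA σ g (N.map (GE σ a b c g).subtype) := by
  intro a' b' c' g' ψ hψ m hm hn φ hφ
  exact mem_of_coord h2 hσ hanis N hi (Reach.isCoord hψ hdiv)
    (Reach.division hψ hdiv).aniso m hm hn φ hφ

end Vale.Agent.P011.E6
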