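import Vale.Agent.P011.E6.H637.SUQ
import Vale.Agent.P011.E6.H64.Glue

/-!
Normal subgroups of finite index contain the special unitary groups of degree three over the
quaternion algebras, in all coordinates.
-/

open Matrix NumberField

namespace Vale.Agent.P011.E6

open Vale.Agent.P011.MPQ Vale.Agent.P011.D4 Vale.Agent.P011.D4.Oct

section anis

variable {k K : Type} [Field k] [Field K] [Algebra k K] {σ : K ≃ₐ[k] K} {a b c : kˣ}
  {g : Fin 3 → kˣ}

theorem re_sum (v : Fin 3 → Qt (up K a) (up K b))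
    (hv : ∑ i, tw σ (v i) * ((algebraMap K (Qt (up K a) (up K b)) (upG K g i : K)) * v i) = 0) :
    ∑ i, (upG K g i : K) * (σ (v i).re * (v i).re - (up K a : K) * σ (v i).imI * (v i).imI -
      (up K b : K) * σ (v i).imJ * (v i).imJ +
      (up K a : K) * (up K b : K) * σ (v i).imK * (v i).imK) = 0 := by
  have e := congrArg QuaternionAlgebra.re hv
  simp only [Fin.sum_univ_three, tw] at e ⊢
  simp only [QuaternionAlgebra.coe_algebraMap, QuaternionAlgebra.re_add,
    QuaternionAlgebra.re_mul, QuaternionAlgebra.imI_mul, QuaternionAlgebra.imJ_mul,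
    QuaternionAlgebra.imK_mul, QuaternionAlgebra.re_star, QuaternionAlgebra.imI_star,
    QuaternionAlgebra.imJ_star, QuaternionAlgebra.imK_star, QuaternionAlgebra.re_coe,
    QuaternionAlgebra.imI_coe, QuaternionAlgebra.imJ_coe, QuaternionAlgebra.imK_coe,
    re_qmap, imI_qmap, imJ_qmap, imK_qmap, QuaternionAlgebra.re_zero] at e
  linear_combination e

theorem anisH_of_herm (h : ∀ x : AlbL K a b c, herm σ g x x = 0 → x = 0) :
    AnisH σ a b g := by
  intro v hv
  have e := re_sum v hv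
  have h0 : herm σ g (⟨0, 0, 0, ⟨0, (upG K g 0 : K) • v 0⟩, ⟨0, (upG K g 1 : K) • v 1⟩,
      ⟨0, (upG K g 2 : K) • v 2⟩⟩ : AlbL K a b c) ⟨0, 0, 0, ⟨0, (upG K g 0 : K) • v 0⟩,
      ⟨0, (upG K g 1 : K) • v 1⟩, ⟨0, (upG K g 2 : K) • v 2⟩⟩ = 0 := by
    have hu : ∀ i, σ (upG K g i : K) = (upG K g i : K) := fun i => σ.commutes _
    simp only [Fin.sum_univ_three] at e
    simp only [herm, Alb.tf, Alb.wt, bil_eq, amap, omap, fst_smul, snd_smul,
      QuaternionAlgebra.re_smul, QuaternionAlgebra.imI_smul, QuaternionAlgebra.imJ_smul,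
      QuaternionAlgebra.imK_smul, smul_eq_mul, re_qmap, imI_qmap, imJ_qmap, imK_qmap, map_mul,
      map_zero, mul_zero, QuaternionAlgebra.re_zero, QuaternionAlgebra.imI_zero,
      QuaternionAlgebra.imJ_zero, QuaternionAlgebra.imK_zero, hu]
    linear_combination (-2 * (up K c : K) * (upG K g 0 : K) * (upG K g 1 : K) *
      (upG K g 2 : K)) * e
  have h1 := h _ h0
  have hg : ∀ i, (upG K g i : K) ≠ 0 := fun i => (upG K g i).ne_zero
  have e1 : (upG K g 0 : K) • v 0 = 0 := congrArg (fun x => Oct.snd (Alb.x1 x)) h1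
  have e2 : (upG K g 1 : K) • v 1 = 0 := congrArg (fun x => Oct.snd (Alb.x2 x)) h1
  have e3 : (upG K g 2 : K) • v 2 = 0 := congrArg (fun x => Oct.snd (Alb.x3 x)) h1
  funext i
  fin_cases i
  · exact (smul_eq_zero.1 e1).resolve_left (hg 0)
  · exact (smul_eq_zero.1 e2).resolve_left (hg 1)
  · exact (smul_eq_zero.1 e3).resolve_left (hg 2)

end anis

section main

theorem sigma_sigma_su {k K : Type} [Field k] [Field K] [Algebra k K]
    (h2 : Module.finrank k K = 2) (σ : K ≃ₐ[k] K) (x : K) : σ (σ x) = x := by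
  have hfd : FiniteDimensional k K := Module.finite_of_finrank_pos (by rw [h2]; norm_num)
  have h3 : Fintype.card (K ≃ₐ[k] K) ≤ 2 := by
    rw [← h2]
    exact AlgEquiv.card_le
  have h4 : orderOf σ ≤ 2 := (orderOf_le_card_univ).trans h3
  have h5 : 0 < orderOf σ := orderOf_pos σ
  have h6 : orderOf σ ∣ 2 := by
    interval_cases orderOf σ <;> norm_num
  have h7 : σ ^ 2 = 1 := orderOf_dvd_iff_pow_eq_one.1 h6
  rw [pow_two] at h7
  exact DFunLike.congr_fun h7 x

variable {k K : Type} [Field k] [Field K] [NumberField K] [Algebra k K]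
  {σ : K ≃ₐ[k] K} {a b c : kˣ} {g : Fin 3 → kˣ}

variable {k K : Type} [Field k] [Field K] [NumberField K] [Algebra k K]
  {σ : K ≃ₐ[k] K} {a b c : kˣ} {g : Fin 3 → kˣ}

omit [NumberField K] in
theorem exists_ne_su (hσ : σ ≠ 1) : ∃ x, σ x ≠ x := by
  by_contra h
  exact hσ (AlgEquiv.ext fun x => not_not.1 (not_exists.1 h x))

/-- The special unitary group of degree three has no proper subgroups of finite index. -/
theorem su_index (h2 : Module.finrank k K = 2) (hσ : σ ≠ 1) (h2' : (2 : K) ≠ 0)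
    (hQ : Aniso (up K a) (up K b))
    (hanis : ∀ x : AlbL K a b c, herm σ g x x = 0 → x = 0)
    (S : Subgroup (H64.SUQ σ a b g h2' hQ)) (hS : S.index ≠ 0) : S = ⊤ :=
  (clauses (sigma_sigma_su h2 σ) (exists_ne_su hσ) h2' hQ (anisH_of_herm hanis)).1 S hS

/-- The normal subgroups of the special unitary group of degree three. -/
theorem su_normal (h2 : Module.finrank k K = 2) (hσ : σ ≠ 1) (h2' : (2 : K) ≠ 0)
    (hQ : Aniso (up K a) (up K b))
    (hanis : ∀ x : AlbL K a b c, herm σ g x x = 0 → x = 0)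
    (S : Subgroup (H64.SUQ σ a b g h2' hQ)) (hS : S.Normal) :
    S ≤ Subgroup.center (H64.SUQ σ a b g h2' hQ) ∨ S = ⊤ :=
  (clauses (sigma_sigma_su h2 σ) (exists_ne_su hσ) h2' hQ (anisH_of_herm hanis)).2 S hS

/-- A subgroup of finite index contains the special unitary groups, in any coordinates. -/
theorem mem_of_coord (h2 : Module.finrank k K = 2) (hσ : σ ≠ 1)
    (hanis : ∀ x : AlbL K a b c, herm σ g x x = 0 → x = 0)
    (N : Subgroup (GE σ a b c g)) (hi : N.index ≠ 0) {a' b' c' : kˣ} {g' : Fin 3 → kˣ}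
    {ψ : AlbL K a' b' c' ≃ₗ[K] AlbL K a b c} (hψ : IsCoord σ g g' ψ)
    (hab : Aniso (up K a') (up K b'))
    (m : (Matrix (Fin 3) (Fin 3) (Qt (up K a') (up K b')))ˣ)
    (hm : IsU σ g' g' (m : Matrix (Fin 3) (Fin 3) (Qt (up K a') (up K b'))))
    (hn : nu (m : Matrix (Fin 3) (Fin 3) (Qt (up K a') (up K b'))) = 1)
    (φ : AlbL K a b c ≃ₗ[K] AlbL K a b c) (hφ : ∀ x, φ (ψ x) = ψ (Alb.act m 1 x)) :
    φ ∈ N.map (GE σ a b c g).subtype := by
  have h := H64.mem_of_index hψ two_ne_zero hab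
    (su_index h2 hσ two_ne_zero hab (H64.anis_coord hψ hanis)) N hi ⟨m, hm, hn⟩
  exact ⟨_, h, (H64.eq_coordHom hψ two_ne_zero hab ⟨m, hm, hn⟩ hφ).symm⟩

/-- A normal subgroup which meets the special unitary group, in some coordinates, in a
noncentral element contains it. -/
theorem mem_of_coord_normal (h2 : Module.finrank k K = 2) (hσ : σ ≠ 1)
    (hanis : ∀ x : AlbL K a b c, herm σ g x x = 0 → x = 0)
    (N : Subgroup (GE σ a b c g)) (hN : N.Normal) {a' b' c' : kˣ} {g' : Fin 3 → kˣ}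
    {ψ : AlbL K a' b' c' ≃ₗ[K] AlbL K a b c} (hψ : IsCoord σ g g' ψ)
    (hab : Aniso (up K a') (up K b'))
    (m₀ m₁ : H64.SUQ σ a' b' g' two_ne_zero hab)
    (hm₀ : H64.coordHom hψ two_ne_zero hab m₀ ∈ N) (hne : m₀ * m₁ ≠ m₁ * m₀)
    (m : (Matrix (Fin 3) (Fin 3) (Qt (up K a') (up K b')))ˣ)
    (hm : IsU σ g' g' (m : Matrix (Fin 3) (Fin 3) (Qt (up K a') (up K b'))))
    (hn : nu (m : Matrix (Fin 3) (Fin 3) (Qt (up K a') (up K b'))) = 1)
    (φ : AlbL K a b c ≃ₗ[K] AlbL K a b c) (hφ : ∀ x, φ (ψ x) = ψ (Alb.act m 1 x)) :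
    φ ∈ N.map (GE σ a b c g).subtype := by
  have h := H64.mem_of_normal hψ two_ne_zero hab
    (su_normal h2 hσ two_ne_zero hab (H64.anis_coord hψ hanis)) N hN
    (fun h => hne (Subgroup.mem_center_iff.1 h m₁).symm) hm₀ ⟨m, hm, hn⟩
  exact ⟨_, h, (H64.eq_coordHom hψ two_ne_zero hab ⟨m, hm, hn⟩ hφ).symm⟩

end main

end Vale.Agent.P011.E6
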