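import Vale.Agent.P011.F3.Main
import Vale.Agent.P011.E6.Defs
import Vale.Agent.P011.E6.H64.Act

/-!
The special unitary groups of degree three over the quaternion algebras `Q ⊗ K` with the unitary
involution `σ ⊗ ι`: the transfer of the theorem of Margulis-Platonov type for hermitian forms of
rank at least three.
-/

open Matrix NumberField

namespace Vale.Agent.P011.E6

open Vale.Agent.P011.MPQ Vale.Agent.P011.D4 Vale.Agent.P011.D4.Oct
open Vale.Agent.P011S (UH SU redNorm IsAnisotropicForm)

section split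

variable {F : Type} [Field F]

/-- The matrices of a splitting of a quaternion algebra. -/
def splitBasis {F' : Type} [Field F'] [Algebra F F'] (a b : Fˣ) (s : F')
    (hs : s ^ 2 = algebraMap F F' (a : F)) :
    QuaternionAlgebra.Basis (Matrix (Fin 2) (Fin 2) F') (a : F) 0 (b : F) where
  i := !![s, 0; 0, -s]
  j := !![0, algebraMap F F' (b : F); 1, 0]
  k := !![0, s * algebraMap F F' (b : F); -s, 0]
  i_mul_i := by
    ext i j
    fin_cases i <;> fin_cases j <;>
      simp [Matrix.mul_apply, Fin.sum_univ_two, Algebra.algebraMap_eq_smul_one, ← pow_two, hs]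
  j_mul_j := by
    ext i j
    fin_cases i <;> fin_cases j <;>
      simp [Matrix.mul_apply, Fin.sum_univ_two, Algebra.algebraMap_eq_smul_one]
  i_mul_j := by
    ext i j
    fin_cases i <;> fin_cases j <;> simp [Matrix.mul_apply, Fin.sum_univ_two]
  j_mul_i := by
    ext i j
    fin_cases i <;> fin_cases j <;>
      simp [Matrix.mul_apply, Fin.sum_univ_two, mul_comm]

/-- A splitting of a quaternion algebra. -/
theorem exists_split (a b : Fˣ) : ∃ (F' : Type) (_ : Field F') (_ : Algebra F F')
    (f : Qt a b →ₐ[F] Matrix (Fin 2) (Fin 2) F'), ∀ x, (f x).det = algebraMap F F' (nrd x) := by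
  obtain ⟨s, hs⟩ := IsAlgClosed.exists_pow_nat_eq (algebraMap F (AlgebraicClosure F) (a : F))
    (n := 2) (by norm_num)
  refine ⟨AlgebraicClosure F, inferInstance, inferInstance, (splitBasis a b s hs).liftHom, ?_⟩
  intro x
  have h : (splitBasis a b s hs).liftHom x =
      !![algebraMap F _ x.re + algebraMap F _ x.imI * s,
        algebraMap F _ (b : F) * (algebraMap F _ x.imJ + algebraMap F _ x.imK * s);
        algebraMap F _ x.imJ - algebraMap F _ x.imK * s,
        algebraMap F _ x.re - algebraMap F _ x.imI * s] := by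
    ext i j
    fin_cases i <;> fin_cases j <;>
      simp [splitBasis, QuaternionAlgebra.Basis.liftHom, QuaternionAlgebra.Basis.lift,
        Matrix.algebraMap_matrix_apply] <;> simp only [Algebra.smul_def] <;> ring
  rw [h, Matrix.det_fin_two_of, nrd]
  simp only [map_sub, map_add, map_mul, map_pow]
  linear_combination (-(algebraMap F (AlgebraicClosure F) x.imI) ^ 2 +
    algebraMap F (AlgebraicClosure F) (b : F) * (algebraMap F (AlgebraicClosure F) x.imK) ^ 2) * hs

end split

section inst

variable {k K : Type} [Field k] [Field K] [Algebra k K]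

/-- A field with an involution, as a star ring. -/
def starK (σ : K ≃ₐ[k] K) (hσ : ∀ x, σ (σ x) = x) : StarRing K where
  star := σ
  star_involutive := hσ
  star_mul x y := by
    change σ (x * y) = σ y * σ x
    rw [map_mul, mul_comm]
  star_add x y := map_add σ x y

/-- The quaternion algebra over the extension field. -/
def QD (K : Type) [Field K] [Algebra k K] (a b : kˣ) : Type := Qt (up K a) (up K b)

theorem isUnit_or {F : Type} [Field F] {a b : Fˣ} (hab : Aniso a b) (x : Qt a b) :
    IsUnit x ∨ x = 0 := by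
  by_cases hx : x = 0
  · exact Or.inr hx
  · exact Or.inl (H64.isUnit_of_nrd fun h => hx (hab x h))

variable {a b : kˣ}

/-- The quaternion algebra as a division ring. -/
noncomputable def divQD (hab : Aniso (up K a) (up K b)) : DivisionRing (QD K a b) :=
  @DivisionRing.ofIsUnitOrEqZero (Qt (up K a) (up K b)) _ _ (isUnit_or hab)

/-- The unitary involution. -/
def tw (σ : K ≃ₐ[k] K) (x : Qt (up K a) (up K b)) : Qt (up K a) (up K b) := star (qmap σ x)

theorem tw_tw {σ : K ≃ₐ[k] K} (hσ : ∀ x, σ (σ x) = x) (x : Qt (up K a) (up K b)) :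
    tw σ (tw σ x) = x := by
  apply QuaternionAlgebra.ext <;> simp [tw, hσ]

theorem tw_mul (σ : K ≃ₐ[k] K) (x y : Qt (up K a) (up K b)) :
    tw σ (x * y) = tw σ y * tw σ x := by
  rw [tw, qmap_mul, star_mul]; rfl

theorem tw_add (σ : K ≃ₐ[k] K) (x y : Qt (up K a) (up K b)) :
    tw σ (x + y) = tw σ x + tw σ y := by
  rw [tw, qmap_add, star_add]; rfl

theorem tw_smul (σ : K ≃ₐ[k] K) (t : K) (x : Qt (up K a) (up K b)) :
    tw σ (t • x) = σ t • tw σ x := by
  rw [tw, qmap_smul, QuaternionAlgebra.star_smul]; rfl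

theorem tw_up (σ : K ≃ₐ[k] K) (t : k) :
    tw σ (algebraMap K (Qt (up K a) (up K b)) (algebraMap k K t)) =
      algebraMap K (Qt (up K a) (up K b)) (algebraMap k K t) := by
  rw [QuaternionAlgebra.coe_algebraMap, tw, H64.qmap_coe, AlgEquiv.commutes]
  exact QuaternionAlgebra.star_coe _

/-- The unitary involution. -/
noncomputable def starQD (σ : K ≃ₐ[k] K) (hσ : ∀ x, σ (σ x) = x)
    (hab : Aniso (up K a) (up K b)) :
    letI := divQD hab
    StarRing (QD K a b) :=
  letI := divQD hab
  { star := fun x => tw (a := a) (b := b) σ x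
    star_involutive := fun x => tw_tw (a := a) (b := b) hσ x
    star_mul := fun x y => tw_mul (a := a) (b := b) σ x y
    star_add := fun x y => tw_add (a := a) (b := b) σ x y }

/-- The algebra structure. -/
noncomputable def algQD (hab : Aniso (up K a) (up K b)) :
    letI := divQD hab
    Algebra K (QD K a b) :=
  (inferInstance : Algebra K (Qt (up K a) (up K b)))

theorem starModule (σ : K ≃ₐ[k] K) (hσ : ∀ x, σ (σ x) = x) (hab : Aniso (up K a) (up K b)) :
    letI := divQD hab
    letI := algQD hab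
    letI := starK σ hσ
    letI := starQD σ hσ hab
    StarModule K (QD K a b) := by
  letI := divQD hab
  letI := algQD hab
  letI := starK σ hσ
  letI := starQD σ hσ hab
  exact ⟨fun t x => tw_smul (a := a) (b := b) σ t x⟩

theorem central_qt {F : Type} [Field F] [NeZero (2 : F)] {a b : Fˣ} :
    Algebra.IsCentral F (Qt a b) := by
  refine ⟨fun x hx => ?_⟩
  rw [Subalgebra.mem_center_iff] at hx
  have h2 : (2 : F) ≠ 0 := NeZero.ne 2
  have hi := hx ⟨0, 1, 0, 0⟩
  have hj := hx ⟨0, 0, 1, 0⟩
  have e1 := congrArg QuaternionAlgebra.imK hi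
  have e2 := congrArg QuaternionAlgebra.imJ hi
  have e3 := congrArg QuaternionAlgebra.imK hj
  simp at e1 e2 e3
  have ha := a.ne_zero
  have h3 : x.imJ = 0 := by
    have : 2 * x.imJ = 0 := by linear_combination e1
    exact (mul_eq_zero.1 this).resolve_left h2
  have h4 : x.imK = 0 := by
    have : 2 * ((a : F) * x.imK) = 0 := by linear_combination e2
    exact (mul_eq_zero.1 ((mul_eq_zero.1 this).resolve_left h2)).resolve_left ha
  have h5 : x.imI = 0 := by
    have : 2 * x.imI = 0 := by linear_combination -e3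
    exact (mul_eq_zero.1 this).resolve_left h2
  rw [Algebra.mem_bot]
  refine ⟨x.re, ?_⟩
  apply QuaternionAlgebra.ext <;> simp [h3, h4, h5]

end inst

/-- The reduced norm, explicitly. -/
theorem redNorm_eq {K D F : Type} [Field K] [DivisionRing D] [Algebra K D] [Field F]
    [Algebra K F] {p : ℕ} (f : D →ₐ[K] Matrix (Fin p) (Fin p) F)
    (μ : Type) [Fintype μ] [DecidableEq μ] (x : Matrix μ μ D) :
    redNorm f μ x = (Matrix.of fun a b : μ × Fin p => f (x a.1 b.1) a.2 b.2).det := rfl

theorem mem_su {K D F : Type} [Field K] [DivisionRing D] [StarRing D] [Algebra K D] [Field F]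
    [Algebra K F] {p : ℕ} (f : D →ₐ[K] Matrix (Fin p) (Fin p) F) {m : ℕ}
    (H : Matrix (Fin m) (Fin m) D) (x : (Matrix (Fin m) (Fin m) D)ˣ) :
    x ∈ SU f H ↔ x ∈ UH H ∧ redNorm f (Fin m) (x : Matrix (Fin m) (Fin m) D) = 1 := Iff.rfl

section apply

variable {k K : Type} [Field k] [Field K] [NumberField K] [Algebra k K] {a b : kˣ}

/-- The form is anisotropic. -/
def AnisH (σ : K ≃ₐ[k] K) (a b : kˣ) (g : Fin 3 → kˣ) : Prop :=
  ∀ v : Fin 3 → Qt (up K a) (up K b),
    ∑ i, tw σ (v i) * ((algebraMap K (Qt (up K a) (up K b)) (upG K g i : K)) * v i) = 0 → v = 0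

omit [NumberField K] in
theorem sum_eq (σ : K ≃ₐ[k] K) (g : Fin 3 → kˣ) (v : Fin 3 → Qt (up K a) (up K b)) :
    ∑ i, tw σ (v i) * ((dg (up K a) (up K b) (upG K g)) *ᵥ v) i =
    ∑ i, tw σ (v i) * ((algebraMap K (Qt (up K a) (up K b)) (upG K g i : K)) * v i) := by
  simp only [dg, mulVec_diagonal]

theorem clauses {σ : K ≃ₐ[k] K} (hσ : ∀ x, σ (σ x) = x) (hσ1 : ∃ x, σ x ≠ x)
    (h2 : (2 : K) ≠ 0) (hab : Aniso (up K a) (up K b)) {g : Fin 3 → kˣ} (hH : AnisH σ a b g) :
    (∀ N : Subgroup (H64.SUQ σ a b g h2 hab), N.index ≠ 0 → N = ⊤) ∧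
    (∀ N : Subgroup (H64.SUQ σ a b g h2 hab), N.Normal →
      N ≤ Subgroup.center (H64.SUQ σ a b g h2 hab) ∨ N = ⊤) := by
  obtain ⟨F', _, _, f, hf⟩ := exists_split (up K a) (up K b)
  letI : StarRing K := starK σ hσ
  letI : DivisionRing (QD K a b) := divQD hab
  letI : StarRing (QD K a b) := starQD σ hσ hab
  letI : Algebra K (QD K a b) := algQD hab
  haveI : StarModule K (QD K a b) := starModule σ hσ hab
  haveI : FiniteDimensional K (QD K a b) :=
    (inferInstance : Module.Finite K (Qt (up K a) (up K b)))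
  haveI : Algebra.IsCentral K (QD K a b) :=
    (central_qt : Algebra.IsCentral K (Qt (up K a) (up K b)))
  have hdeg : Module.finrank K (QD K a b) = 2 ^ 2 :=
    (QuaternionAlgebra.finrank_eq_four (up K a : K) 0 (up K b : K) :)
  let f' : QD K a b →ₐ[K] Matrix (Fin 2) (Fin 2) F' := f
  let H : Matrix (Fin 3) (Fin 3) (QD K a b) := dg (up K a) (up K b) (upG K g)
  have hHH : IsAnisotropicForm H := by
    refine ⟨?_, fun v hv => ?_⟩
    · ext i j
      change tw σ (dg (up K a) (up K b) (upG K g) j i) = dg (up K a) (up K b) (upG K g) i j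
      rw [dg]
      by_cases h : i = j
      · subst h
        rw [diagonal_apply_eq]
        exact tw_up σ (g i : k)
      · rw [diagonal_apply_ne _ h, diagonal_apply_ne _ (Ne.symm h), tw, qmap_zero, star_zero]
    · apply hH v
      exact (sum_eq σ g v).symm.trans hv
  obtain ⟨h1, -, h3⟩ := Vale.Agent.P011.F3.all_clauses (K := K) (D := QD K a b) (F := F') hσ1
    (le_refl 2) hdeg f' (m := 3) (by norm_num) H hHH
  obtain ⟨h4, -⟩ := h3 (le_refl 3)
  let e : QD K a b ≃+* Qt (up K a) (up K b) :=
    { toFun := fun x => x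
      invFun := fun x => x
      left_inv := fun _ => rfl
      right_inv := fun _ => rfl
      map_mul' := fun _ _ => rfl
      map_add' := fun _ _ => rfl }
  let E : (Matrix (Fin 3) (Fin 3) (QD K a b))ˣ ≃* (Matrix (Fin 3) (Fin 3) (Qt (up K a) (up K b)))ˣ :=
    Units.mapEquiv (e.mapMatrix : Matrix (Fin 3) (Fin 3) (QD K a b) ≃+* _).toMulEquiv
  have hmem : ∀ m, m ∈ SU f' H ↔ E m ∈ H64.SUQ σ a b g h2 hab := by
    intro m
    have h5 : redNorm f' (Fin 3) (m : Matrix (Fin 3) (Fin 3) (QD K a b)) =
        algebraMap K F' (nu ((E m : (Matrix (Fin 3) (Fin 3) (Qt (up K a) (up K b)))ˣ) :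
          Matrix (Fin 3) (Fin 3) (Qt (up K a) (up K b)))) :=
      (redNorm_eq f' (Fin 3) (m : Matrix (Fin 3) (Fin 3) (QD K a b))).trans
        (H64.rN_eq_nu h2 hab f hf (E m : (Matrix (Fin 3) (Fin 3) (Qt (up K a) (up K b)))ˣ))
    have h6 : (redNorm f' (Fin 3) (m : Matrix (Fin 3) (Fin 3) (QD K a b)) = 1) ↔
        nu ((E m : (Matrix (Fin 3) (Fin 3) (Qt (up K a) (up K b)))ˣ) :
          Matrix (Fin 3) (Fin 3) (Qt (up K a) (up K b))) = 1 := by
      constructor
      · intro h
        rw [h5] at h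
        exact (algebraMap K F').injective (h.trans (map_one _).symm)
      · intro h
        rw [h5, h, map_one]
    have h7 : m ∈ UH H ↔ IsU σ g g ((E m : (Matrix (Fin 3) (Fin 3) (Qt (up K a) (up K b)))ˣ) :
          Matrix (Fin 3) (Fin 3) (Qt (up K a) (up K b))) := Iff.rfl
    rw [mem_su, h7, h6]
    exact Iff.rfl
  let Φ : SU f' H ≃* H64.SUQ σ a b g h2 hab :=
    { toFun := fun m => ⟨E m.1, (hmem _).1 m.2⟩
      invFun := fun m => ⟨E.symm m.1, (hmem _).2 (by rw [E.apply_symm_apply]; exact m.2)⟩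
      left_inv := fun m => Subtype.ext (E.symm_apply_apply m.1)
      right_inv := fun m => Subtype.ext (E.apply_symm_apply m.1)
      map_mul' := fun m n => Subtype.ext (map_mul E m.1 n.1) }
  have hback : ∀ N : Subgroup (H64.SUQ σ a b g h2 hab), N.comap Φ.toMonoidHom = ⊤ → N = ⊤ := by
    intro N hN
    rw [eq_top_iff]
    intro x _
    have h := (Subgroup.mem_top (Φ.symm x))
    rw [← hN, Subgroup.mem_comap] at h
    have e1 : Φ.toMonoidHom (Φ.symm x) = x := Φ.apply_symm_apply x
    rwa [e1] at h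
  refine ⟨fun N hN => hback N (h1 _ ?_), fun N hN => ?_⟩
  · rw [Subgroup.index_comap_of_surjective _ Φ.surjective]
    exact hN
  · haveI := hN
    rcases h4 (N.comap Φ.toMonoidHom) with h | h
    · left
      intro x hx
      rw [Subgroup.mem_center_iff]
      intro y
      have h7 : Φ.symm x ∈ N.comap Φ.toMonoidHom := by
        rw [Subgroup.mem_comap]
        have e1 : Φ.toMonoidHom (Φ.symm x) = x := Φ.apply_symm_apply x
        rwa [e1]
      have h8 := Subgroup.mem_center_iff.1 (h h7) (Φ.symm y)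
      have h9 := congrArg Φ h8
      rwa [map_mul, map_mul, Φ.apply_symm_apply, Φ.apply_symm_apply] at h9
    · exact Or.inr (hback N h)

end apply

end Vale.Agent.P011.E6
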